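import Vale.Agent.P221.E.H658.Gen
import Vale.Agent.P221.H509.Fin
import Vale.Agent.P221.H509.Final
import Vale.Agent.P221.T.H598.HBfin

/-!
# P221 (helper658), converse on fp-spectra

`totallyFinite_of_isBPFinite` : if `Y` is a `p`-complete homotopy `BP`-module such that `π_* Y` is
finitely generated over `ℤ_p[v_1, …, v_n]`, and `V` is a generalised Moore spectrum of type `n + 1`,
then `π_* (Y ⊗ V)` is finite.
-/

open CategoryTheory MonoidalCategory OnePoint Limits Pretriangulated MonObj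
open Vale.Agent.P251.St Vale.Agent.P251.St.SHCat Vale.Agent.P257.St Vale.Agent.P251.T
  Vale.Agent.P251.M Vale.Agent.P251.S Vale.Agent.P257.H702 Vale.Agent.P221.St
open Vale.Agent.P251.M.EvenSpheres
open Vale.Agent.P221.H395.Fp

set_option linter.unusedSectionVars false

open DirectSum

noncomputable section

namespace Vale.Agent.P221.E.H658

variable {T : SHCat} {S : Susp T} {R : RingSp T} {p : ℕ} {X : T.C}

theorem Ph_surj {Q : T.C} {m l : ℤ} (c : (stdEven T.C).S l ≅ Q ⊗ (𝟙_ T.C)⟦m⟧)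
    (y : (stdEven T.C).S l ⟶ X ⊗ (𝟙_ T.C)⟦m⟧) : ∃ z : Q ⟶ X, Ph c z = y := by
  obtain ⟨z, hz⟩ := (shiftFunctor T.C m).map_surjective
    ((tensorSph m Q).inv ≫ c.inv ≫ y ≫ (tensorSph m X).hom)
  refine ⟨z, ?_⟩
  rw [Ph, ← cancel_mono (tensorSph m X).hom, Category.assoc, tensorSph_naturality, hz]
  simp

/-- `p`-complete objects have no infinitely divisible sequences -/
theorem divP {M : ModStr R.obj X} {V : T.C} (hV : H395.PComplete p (X ⊗ V)) :
    DivP M (p : ℤ) V := by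
  intro x hx
  obtain ⟨C, i, δ, hC⟩ := distinguished_cocone_triangle ((p : ℤ) • 𝟙 (𝟙_ T.C))
  refine ext_cM fun k => ?_
  rw [map_zero]
  exact hV.eq_zero_of_compat hC (fun i => cM (M.tensorRight V) k (x i)) (fun i => by
    rw [← map_zsmul, ← hx i]) 0

theorem pc_sph (hX : H395.PComplete p X) (m : ℤ) : H395.PComplete p (X ⊗ (𝟙_ T.C)⟦m⟧) :=
  (H395.PComplete.shift hX m).of_iso (tensorSph m X).symm

section gen

variable [hp : Fact p.Prime]

open Vale.Agent.P221.T (BPS sV)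

/-- **finite generation modulo `p`** -/
theorem genP_of_isFG {Pc W : T.C} (b : BPS p R.obj Pc W) (hX : H395.PComplete p X)
    {a : Hom (ten R.obj X) X} (ha : IsAct a) {φ : GHom S p R} {n : ℕ} (h : IsFG φ n a) (m : ℤ) :
    GenP (H395.Fp.modOf ha) (vset φ 1 n) (p : ℤ) ((𝟙_ T.C)⟦m⟧) := by
  classical
  obtain ⟨Y, hY, h⟩ := h
  let M := H395.Fp.modOf ha
  let P : T.C := (𝟙_ T.C)⟦m⟧
  have hP : H395.PComplete p (X ⊗ P) := pc_sph hX m
  let g : (Σ k : ℤ, Hom (sphere T k) X) → ⨁ k, GrM (M.tensorRight P) k := fun y =>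
    if h : ∃ l, Nonempty ((stdEven T.C).S l ≅ (𝟙_ T.C)⟦y.1⟧ ⊗ P) then
      ofM (M.tensorRight P) h.choose (Ph h.choose_spec.some y.2) else 0
  have hZ : ∀ (k : ℤ) (y : Hom (sphere T k) X), (⟨k, y⟩ : Σ k : ℤ, Hom (sphere T k) X) ∈ Y →
      ∀ (l : ℤ) (c : (stdEven T.C).S l ≅ (𝟙_ T.C)⟦k⟧ ⊗ P),
        ofM (M.tensorRight P) l (Ph c y) ∈ QM M (vset φ 1 n) (p : ℤ) P (g '' Y) := by
    intro k y hy l c
    obtain ⟨l', c', hg⟩ : ∃ (l' : ℤ) (c' : (stdEven T.C).S l' ≅ (𝟙_ T.C)⟦k⟧ ⊗ P),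
        g ⟨k, y⟩ = ofM (M.tensorRight P) l' (Ph c' y) :=
      ⟨_, _, dif_pos (⟨l, ⟨c⟩⟩ : ∃ l, Nonempty ((stdEven T.C).S l ≅ (𝟙_ T.C)⟦k⟧ ⊗ P))⟩
    obtain rfl : l = l' := evSph_inj b (c ≪≫ c'.symm)
    have h1 : Ph c y = (c.hom ≫ c'.inv) ≫ Ph c' y := by
      simp only [Ph, Category.assoc, Iso.inv_hom_id_assoc]
    rw [h1]
    refine QM_comp b M hP _ ?_
    rw [← hg]
    exact Submodule.mem_sup_left (Submodule.subset_span ⟨_, hy, rfl⟩)
  refine ⟨g '' Y, hY.image g, fun u => mem_QM.1 ?_⟩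
  change u ∈ QM M (vset φ 1 n) (p : ℤ) P (g '' Y)
  induction u using ind with
  | h0 => exact Submodule.zero_mem _
  | h1 l y =>
    let c : (stdEven T.C).S l ≅ (𝟙_ T.C)⟦(2 * l - m : ℤ)⟧ ⊗ P :=
      (stdEven T.C).sphIso (Iso.refl _) l ≪≫
        (shiftFunctorAdd' T.C (2 * l - m) m (2 * l) (by ring)).app (𝟙_ T.C) ≪≫
          (tensorSph m _).symm
    obtain ⟨z, rfl⟩ := Ph_surj c y
    obtain ⟨z', hz'⟩ := h (2 * l - m) z
    have h1 : z = (z - zmul p z') + (p : ℤ) • z' := by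
      change z = (z - (p : ℤ) • z') + (p : ℤ) • z'
      rw [sub_add_cancel]
    have h2 : Ph c z = Ph c (z - zmul p z') + (p : ℤ) • Ph c z' := by
      rw [← Ph_zsmul, ← sub_eq_iff_eq_add, ← Ph_sub]
    rw [h2, map_add, map_zsmul]
    exact Submodule.add_mem _ (mem_of_span b M hP rfl hZ hz' l c) (smul_mem_QM _)
  | h2 x y hx hy => exact Submodule.add_mem _ hx hy

end gen

/-- **finiteness of the homotopy groups** -/
theorem totallyFinite_of_finite (M : ModStr R.obj X) {V : T.C}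
    (h : ∀ m : ℤ, Finite (⨁ k, GrM (M.tensorRight (V⟦m⟧)) k)) : TotallyFinite (ten X V) := by
  classical
  -- the comparison
  let e₁ : ∀ (m k l : ℤ) (_ : k + m = 2 * l), (stdEven T.C).S l ≅ ((𝟙_ T.C)⟦k⟧)⟦m⟧ :=
    fun m k l h => (stdEven T.C).sphIso (Iso.refl _) l ≪≫
      (shiftFunctorAdd' T.C k m (2 * l) h).app (𝟙_ T.C)
  let e₂ : ∀ m : ℤ, (X ⊗ V)⟦m⟧ ≅ X ⊗ V⟦m⟧ := fun m =>
    ((Functor.commShiftIso (tensorLeft X) m).app V).symm
  let ψ : ∀ (m k l : ℤ) (_ : k + m = 2 * l), ((𝟙_ T.C)⟦k⟧ ⟶ X ⊗ V) →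
      ((stdEven T.C).S l ⟶ X ⊗ V⟦m⟧) := fun m k l h z =>
    (e₁ m k l h).hom ≫ z⟦m⟧' ≫ (e₂ m).hom
  have hψ : ∀ m k l h, Function.Injective (ψ m k l h) := by
    intro m k l h z z' hz
    have h1 := (cancel_epi (e₁ m k l h).hom).1 hz
    exact (shiftFunctor T.C m).map_injective ((cancel_mono (e₂ m).hom).1 h1)
  have hof : ∀ m l : ℤ, Function.Injective (ofM (M.tensorRight (V⟦m⟧)) l) := fun m l =>
    DirectSum.of_injective (β := GrM (M.tensorRight (V⟦m⟧))) l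
  refine ⟨fun k => ?_, ?_⟩
  · have := h k
    exact Finite.of_injective _ ((hof k k).comp (hψ k k k (by ring)))
  · have hb : ∀ m : ℤ, ∃ B : ℤ, ∀ l : ℤ, B < |l| → ∀ y : (stdEven T.C).S l ⟶ X ⊗ V⟦m⟧, y = 0 := by
      intro m
      have := h m
      let L : Set ℤ := ⋃ u : ⨁ k, GrM (M.tensorRight (V⟦m⟧)) k, (DFinsupp.support u : Set ℤ)
      have hL : L.Finite := Set.finite_iUnion fun u => Finset.finite_toSet _
      obtain ⟨B, hB⟩ := (hL.image fun l => |l|).bddAbove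
      refine ⟨B, fun l hl y => ?_⟩
      by_contra hy
      refine absurd (hB ⟨l, ?_, rfl⟩) (not_le.2 hl)
      refine Set.mem_iUnion.2 ⟨ofM (M.tensorRight (V⟦m⟧)) l y, ?_⟩
      rw [Finset.mem_coe, DFinsupp.mem_support_iff]
      exact fun h0 => hy ((cM_ofM (M.tensorRight (V⟦m⟧)) l y).symm.trans h0)
    obtain ⟨B₀, h0⟩ := hb 0
    obtain ⟨B₁, h1⟩ := hb 1
    refine ⟨2 * (|B₀| + |B₁|) + 2, fun k hk z => ?_⟩
    have hA := le_abs_self B₀
    have hA' := le_abs_self B₁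
    have hC := abs_nonneg B₀
    have hC' := abs_nonneg B₁
    rcases Int.even_or_odd' k with ⟨l, rfl | rfl⟩
    · apply hψ 0 (2 * l) l (by ring)
      rw [h0 l ?_ (ψ 0 (2 * l) l _ z), h0 l ?_ (ψ 0 (2 * l) l _ 0)]
      all_goals
        rw [abs_mul, abs_two] at hk
        omega
    · have h3 : |2 * l + 1| ≤ 2 * |l + 1| + 1 := by
        have h4 := abs_add_le (2 * (l + 1)) (-1)
        rw [abs_mul, abs_two, abs_neg, abs_one, show 2 * (l + 1) + -1 = 2 * l + 1 by ring] at h4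
        exact h4
      apply hψ 1 (2 * l + 1) (l + 1) (by ring)
      rw [h1 (l + 1) ?_ (ψ 1 (2 * l + 1) (l + 1) _ z), h1 (l + 1) ?_ (ψ 1 (2 * l + 1) (l + 1) _ 0)]
      all_goals omega

/-- **the converse on fp-spectra**: `p`-complete homotopy `BP`-modules whose homotopy is finitely
generated over `ℤ_p[v_1, …, v_n]` have fp-type at most `n` -/
theorem totallyFinite_of_isBPFinite (hp : p.Prime) {n : ℕ} {Y : T.C} (hY : IsBPFinite S p n Y)
    {P : RingSp T} {o : Oriented S P} {φ : GHom S p P} (hφ : IsBrownPeterson p o φ) {V : T.C}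
    (hV : IsGenMoore φ (n + 1) V) : TotallyFinite (ten Y V) := by
  have : Fact p.Prime := ⟨hp⟩
  obtain ⟨hc, P', o', φ', a', hP', ha', hfg'⟩ := hY
  obtain ⟨f, _, _, hff⟩ := P221.H509.exists_bp_iso hP' hφ
  have ha := P221.H509.isAct_comp (P' := P) ha' f.inv
  have hfg := P221.H509.isFG_comp f hff hfg'
  obtain ⟨D, hD, hA, ⟨U⟩⟩ := H924.exists_mu S.toSpaceFunctor (P251.M.lineIso S.toSpaceFunctor)
  obtain ⟨b₀, _, κ, Φ, hκ, -, hΦ⟩ := P221.H509.exists_bpOut' hD hA U hφ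
  obtain ⟨Pc, W, b, -⟩ := Vale.Agent.P221.T.H598.exists_BPS hD hA hκ.mon hΦ
  have hX : H395.PComplete p Y := hc
  exact totallyFinite_of_finite (H395.Fp.modOf ha) fun m =>
    finite_genMoore hp hφ.typ (H395.Fp.modOf ha) (fun m => divP (pc_sph hX m))
      (fun m => genP_of_isFG b hX ha hfg m) hV m

end Vale.Agent.P221.E.H658
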