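import Vale.Agent.P221.H395.Fp.Alg
import Mathlib.GroupTheory.FiniteAbelian.Basic

/-!
# P221 (helper658), converse on fp-spectra: algebra

`A s` is the subring generated by the finite set `s` (Noetherian).

* `tors_fg` : if `G` is finitely generated modulo `p` and has no infinitely `p`-divisible sequences,
  then the `p ^ i`-torsion of `G` is finitely generated;
* `fg_ext` : extensions;
* `fg_drop`, `finite_of_nil` : if all elements of `s` and `p` are nilpotent on `M` and `M` is finitely
  generated, then `M` is finite.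
-/

namespace Vale.Agent.P221.E.H658

open Vale.Agent.P221.H395.Fp (A closed_adjoin)

universe u v

variable {H : Type u} [CommRing H]

theorem noeth {s : Set H} (hs : s.Finite) : IsNoetherianRing (A s) :=
  isNoetherianRing_of_fg (Subalgebra.fg_def.2 ⟨s, hs, rfl⟩)

section ext

variable {M₁ M₂ M₃ : Type v} [AddCommGroup M₁] [AddCommGroup M₂] [AddCommGroup M₃]
  [Module H M₁] [Module H M₂] [Module H M₃]

/-- extensions of finitely generated modules -/
theorem fg_ext {s : Set H} (hs : s.Finite) (f : M₁ →ₗ[H] M₂) (g : M₂ →ₗ[H] M₃)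
    (hfg : ∀ u, g u = 0 → ∃ u', f u' = u)
    (h₁ : (LinearMap.range (f.restrictScalars (A s))).FG)
    (h₃ : (LinearMap.range (g.restrictScalars (A s))).FG) :
    (⊤ : Submodule (A s) M₂).FG := by
  have := noeth hs
  refine Submodule.fg_of_fg_map_of_fg_inf_ker (g.restrictScalars (A s)) ?_ ?_
  · rwa [Submodule.map_top]
  · rw [top_inf_eq]
    have h2 : LinearMap.ker (g.restrictScalars (A s)) ≤ LinearMap.range (f.restrictScalars (A s)) := by
      intro u hu
      obtain ⟨u', hu'⟩ := hfg u hu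
      exact ⟨u', hu'⟩
    have h4 : IsNoetherian (A s) (LinearMap.range (f.restrictScalars (A s))) :=
      isNoetherian_of_fg_of_noetherian _ h₁
    have h5 := Submodule.FG.map (LinearMap.range (f.restrictScalars (A s))).subtype
      (IsNoetherian.noetherian (Submodule.comap (LinearMap.range (f.restrictScalars (A s))).subtype
        (LinearMap.ker (g.restrictScalars (A s)))))
    rwa [Submodule.map_comap_subtype, inf_eq_right.2 h2] at h5

theorem range_fg_of_fg {s : Set H} (f : M₁ →ₗ[H] M₂) (h : (⊤ : Submodule (A s) M₁).FG) :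
    (LinearMap.range (f.restrictScalars (A s))).FG := by
  rw [← Submodule.map_top]
  exact h.map _

theorem range_fg_of_fg' {s : Set H} (hs : s.Finite) (f : M₁ →ₗ[H] M₂)
    (h : (⊤ : Submodule (A s) M₂).FG) : (LinearMap.range (f.restrictScalars (A s))).FG := by
  have := noeth hs
  have : Module.Finite (A s) M₂ := ⟨h⟩
  exact IsNoetherian.noetherian _

/-- nilpotent elements on extensions -/
theorem nil_ext {v : H} {a b : ℕ} (f : M₁ →ₗ[H] M₂) (g : M₂ →ₗ[H] M₃)
    (hfg : ∀ u, g u = 0 → ∃ u', f u' = u) (h₁ : ∀ u : M₁, v ^ a • f u = 0)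
    (h₃ : ∀ u : M₂, v ^ b • g u = 0) (u : M₂) : v ^ (a + b) • u = 0 := by
  obtain ⟨u', hu'⟩ := hfg (v ^ b • u) (by rw [map_smul, h₃])
  rw [pow_add, mul_smul, ← hu', h₁]

end ext

section tors

variable {R : Type u} [CommRing R] [IsNoetherianRing R] {G : Type v} [AddCommGroup G] [Module R G]

/-- the torsion is finitely generated -/
theorem tors_fg {p : ℤ} (hdiv : ∀ x : ℕ → G, (∀ i, x i = p • x (i + 1)) → x 0 = 0)
    {Z : Set G} (hZ : Z.Finite) (hgen : ∀ u : G, ∃ a ∈ Submodule.span R Z, ∃ u', u - a = p • u')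
    (i : ℕ) : ∃ F : Submodule R G, F.FG ∧ ∀ x : G, p ^ i • x = 0 → x ∈ F := by
  -- the quotient by `p`
  let pG : Submodule R G := LinearMap.range (p • (LinearMap.id : G →ₗ[R] G))
  have hpG : ∀ x, x ∈ pG ↔ ∃ y, x = p • y := by
    intro x
    constructor
    · rintro ⟨y, rfl⟩
      exact ⟨y, rfl⟩
    · rintro ⟨y, rfl⟩
      exact ⟨y, rfl⟩
  have hfin : Module.Finite R (G ⧸ pG) := by
    refine ⟨⟨(hZ.image pG.mkQ).toFinset, ?_⟩⟩
    rw [Set.Finite.coe_toFinset, eq_top_iff, ← Submodule.map_span]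
    intro q _
    obtain ⟨u, rfl⟩ := pG.mkQ_surjective q
    obtain ⟨a, ha, u', hu'⟩ := hgen u
    refine ⟨a, ha, ?_⟩
    rw [← sub_eq_zero, ← map_sub, ← neg_sub, map_neg, neg_eq_zero, hu']
    exact (Submodule.Quotient.mk_eq_zero pG).2 ((hpG _).2 ⟨u', rfl⟩)
  -- the torsion
  let N : ℕ → Submodule R G := fun i => LinearMap.ker ((p ^ i) • (LinearMap.id : G →ₗ[R] G))
  have hN : ∀ i x, x ∈ N i ↔ p ^ i • x = 0 := fun i x => Iff.rfl
  have hNmono : Monotone N := by
    refine monotone_nat_of_le_succ fun i x hx => ?_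
    rw [hN] at hx ⊢
    rw [pow_succ', mul_smul, hx, smul_zero]
  let F : ℕ →o Submodule R (G ⧸ pG) :=
    ⟨fun i => (N i).map pG.mkQ, fun i j h => Submodule.map_mono (hNmono h)⟩
  obtain ⟨i₀, hi₀⟩ := monotone_stabilizes_iff_noetherian.2 (inferInstance : IsNoetherian R (G ⧸ pG)) F
  -- every torsion element is in `N i₀` modulo `p`
  have key : ∀ m x, x ∈ N m → ∃ w ∈ N i₀, ∃ z, x = w + p • z ∧ ∃ m', z ∈ N m' := by
    intro m x hx
    have h1 : pG.mkQ x ∈ F (max m i₀) := ⟨x, hNmono (le_max_left _ _) hx, rfl⟩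
    rw [← hi₀ _ (le_max_right _ _)] at h1
    obtain ⟨w, hw, hwx⟩ := h1
    have h2 : x - w ∈ pG := by
      rw [← (Submodule.Quotient.mk_eq_zero pG)]
      change pG.mkQ (x - w) = 0
      rw [map_sub, hwx, sub_self]
    obtain ⟨z, hz⟩ := (hpG _).1 h2
    refine ⟨w, hw, z, ?_, max m i₀ + 1, ?_⟩
    · rw [← hz]
      abel
    · rw [hN, pow_succ, mul_smul, ← hz]
      have h3 : x - w ∈ N (max m i₀) :=
        (N _).sub_mem (hNmono (le_max_left _ _) hx) (hNmono (le_max_right _ _) hw)
      exact h3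
  -- the torsion is killed by `p ^ i₀`
  have hall : ∀ m x, x ∈ N m → x ∈ N i₀ := by
    intro m x hx
    let Tt := {x : G // ∃ m, x ∈ N m}
    have key' : ∀ x : Tt, ∃ z : Tt, p ^ i₀ • x.1 = p • (p ^ i₀ • z.1) := by
      rintro ⟨x, m, hx⟩
      obtain ⟨w, hw, z, hz, hz'⟩ := key m x hx
      refine ⟨⟨z, hz'⟩, ?_⟩
      change p ^ i₀ • x = p • (p ^ i₀ • z)
      rw [hz, smul_add, (hN _ _).1 hw, zero_add, smul_comm]
    choose nx hnx using key'
    let sq : ℕ → Tt := fun i => nx^[i] ⟨x, m, hx⟩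
    have h1 := hdiv (fun i => p ^ i₀ • (sq i).1) fun i => by
      have h2 : sq (i + 1) = nx (sq i) := Function.iterate_succ_apply' nx i _
      change p ^ i₀ • (sq i).1 = p • (p ^ i₀ • (sq (i + 1)).1)
      rw [h2]
      exact hnx (sq i)
    exact h1
  -- generators
  have hmapfg : (F i₀).FG := IsNoetherian.noetherian _
  obtain ⟨t, ht⟩ := hmapfg
  have h2 : ∀ q : t, ∃ y ∈ N i₀, pG.mkQ y = q := by
    intro q
    have h3 : (q : G ⧸ pG) ∈ F i₀ := by
      rw [← ht]
      exact Submodule.subset_span q.2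
    exact h3
  choose y hy hyq using h2
  have hspan : ∀ j x, x ∈ N i₀ → ∃ a ∈ Submodule.span R (Set.range y), ∃ z ∈ N i₀,
      x = a + p ^ j • z := by
    intro j
    induction j with
    | zero => exact fun x hx => ⟨0, Submodule.zero_mem _, x, hx, by rw [pow_zero, one_smul, zero_add]⟩
    | succ j ih =>
      intro x hx
      obtain ⟨a, ha, z, hz, rfl⟩ := ih x hx
      have h3 : pG.mkQ z ∈ Submodule.map pG.mkQ (Submodule.span R (Set.range y)) := by
        rw [Submodule.map_span]
        have h5 : pG.mkQ '' Set.range y = t := by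
          ext q
          constructor
          · rintro ⟨_, ⟨q, rfl⟩, rfl⟩
            rw [hyq]
            exact q.2
          · intro hq
            exact ⟨y ⟨q, hq⟩, ⟨_, rfl⟩, hyq ⟨q, hq⟩⟩
        rw [h5, ht]
        exact ⟨z, hz, rfl⟩
      obtain ⟨a', ha', haz⟩ := h3
      have h4 : z - a' ∈ pG := by
        rw [← (Submodule.Quotient.mk_eq_zero pG)]
        change pG.mkQ (z - a') = 0
        rw [map_sub, haz, sub_self]
      obtain ⟨z', hz'⟩ := (hpG _).1 h4
      have h6 : Submodule.span R (Set.range y) ≤ N i₀ := by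
        rw [Submodule.span_le]
        rintro _ ⟨q, rfl⟩
        exact hy q
      refine ⟨a + p ^ j • a', Submodule.add_mem _ ha (zsmul_mem ha' _), z',
        hall (i₀ + 1) z' ?_, ?_⟩
      · rw [hN, pow_succ, mul_smul, ← hz']
        exact (N i₀).sub_mem hz (h6 ha')
      · rw [pow_succ, mul_smul, ← hz', smul_sub]
        abel
  refine ⟨Submodule.span R (Set.range y), ⟨(Set.finite_range y).toFinset, by
    rw [Set.Finite.coe_toFinset]⟩, fun x hx => ?_⟩
  obtain ⟨a, ha, z, hz, rfl⟩ := hspan i₀ x (hall i x hx)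
  rw [(hN _ _).1 hz, add_zero]
  exact ha

end tors

section fin

variable {M : Type v} [AddCommGroup M] [Module H M]

/-- if `v` is nilpotent on `M`, it is not needed -/
theorem fg_drop {s : Set H} {v : H} {N : ℕ} (hv : ∀ u : M, v ^ N • u = 0)
    (h : (⊤ : Submodule (A (insert v s)) M).FG) : (⊤ : Submodule (A s) M).FG := by
  classical
  obtain ⟨Z, hZ⟩ := h
  let W : Set M := ⋃ b ∈ Finset.range (N + 1), (fun z => v ^ b • z) '' (Z : Set M)
  have hW : W.Finite := (Finset.finite_toSet _).biUnion fun b _ => Z.finite_toSet.image _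
  set P : Submodule (A s) M := Submodule.span (A s) W with hP
  have hPv : ∀ u ∈ P, v • u ∈ P := by
    intro u hu
    induction hu using Submodule.span_induction with
    | mem x hx =>
      simp only [W, Set.mem_iUnion] at hx
      obtain ⟨b, hb, z, hz, rfl⟩ := hx
      rw [Finset.mem_range] at hb
      change v • (v ^ b • z) ∈ P
      rw [← mul_smul, ← pow_succ']
      rcases (Nat.lt_succ_iff.1 hb).lt_or_eq with hb' | rfl
      · refine Submodule.subset_span ?_
        simp only [W, Set.mem_iUnion]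
        exact ⟨b + 1, Finset.mem_range.2 (by omega), z, hz, rfl⟩
      · rw [pow_succ', mul_smul, hv, smul_zero]
        exact P.zero_mem
    | zero =>
      rw [smul_zero]
      exact P.zero_mem
    | add x y _ _ hx hy =>
      rw [smul_add]
      exact P.add_mem hx hy
    | smul a x _ hx =>
      have h1 : v • (a • x) = a • (v • x) := smul_comm v (a : H) x
      rw [h1]
      exact P.smul_mem a hx
  have h1 : ∀ h ∈ insert v s, ∀ u ∈ P.toAddSubgroup, h • u ∈ P.toAddSubgroup := by
    intro h hh u hu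
    rcases hh with rfl | hh
    · exact hPv u hu
    · exact P.smul_mem (⟨h, Algebra.subset_adjoin hh⟩ : A s) hu
  have h2 : (⊤ : Submodule (A (insert v s)) M) ≤
      { P.toAddSubgroup with
        smul_mem' := fun a u hu => closed_adjoin P.toAddSubgroup h1 a.2 u hu } := by
    rw [← hZ, Submodule.span_le]
    intro z hz
    refine Submodule.subset_span ?_
    simp only [W, Set.mem_iUnion]
    exact ⟨0, Finset.mem_range.2 (by omega), z, hz, by
      change v ^ 0 • z = z
      rw [pow_zero, one_smul]⟩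
  refine ⟨hW.toFinset, ?_⟩
  rw [Set.Finite.coe_toFinset, eq_top_iff]
  intro u _
  exact h2 (Submodule.mem_top (x := u))

theorem fg_empty {s : Set H} (hs : s.Finite) (h : (⊤ : Submodule (A s) M).FG)
    (hnil : ∀ v ∈ s, ∃ N : ℕ, ∀ u : M, v ^ N • u = 0) :
    (⊤ : Submodule (A (∅ : Set H)) M).FG := by
  induction s, hs using Set.Finite.induction_on with
  | empty => exact h
  | @insert v s _ _ ih =>
    obtain ⟨N, hN⟩ := hnil v (Set.mem_insert _ _)
    exact ih (fg_drop hN h) fun w hw => hnil w (Set.mem_insert_of_mem _ hw)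

/-- **finiteness** -/
theorem finite_of_nil {s : Set H} (hs : s.Finite) (h : (⊤ : Submodule (A s) M).FG)
    (hnil : ∀ v ∈ s, ∃ N : ℕ, ∀ u : M, v ^ N • u = 0) {q : ℤ} (hq : q ≠ 0)
    (hqM : ∀ u : M, q • u = 0) : Finite M := by
  obtain ⟨Z, hZ⟩ := fg_empty hs h hnil
  have h1 : (⊤ : Submodule ℤ M).FG := by
    refine ⟨Z, eq_top_iff.2 fun u _ => ?_⟩
    have h3 : (⊤ : Submodule (A (∅ : Set H)) M) ≤
        { (Submodule.span ℤ (Z : Set M)).toAddSubgroup with
          smul_mem' := fun a u hu => closed_adjoin _ (fun h hh => hh.elim) a.2 u hu } := by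
      rw [← hZ, Submodule.span_le]
      intro z hz
      exact Submodule.subset_span hz
    exact h3 (Submodule.mem_top (x := u))
  have : Module.Finite ℤ M := ⟨h1⟩
  have h2 : Module.IsTorsion ℤ M := by
    intro x
    exact ⟨⟨q, mem_nonZeroDivisors_of_ne_zero hq⟩, hqM x⟩
  exact Module.finite_of_fg_torsion M h2

end fin

end Vale.Agent.P221.E.H658
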