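import Vale.Agent.P221.E.H658.Ind
import Vale.Agent.P221.H509.Main

/-!
# P221 (helper658), converse on fp-spectra: `IsFG` gives finite generation modulo `p`

* `gsmul_Ph` : products with suspended classes;
* `genP_of_isFG` : if `IsFG φ n a`, then `π_{2*} (Y ⊗ S^m)` is finitely generated modulo `p` over
  `ℤ[v_1, …, v_n]`.
-/

open CategoryTheory MonoidalCategory OnePoint Limits Pretriangulated MonObj
open Vale.Agent.P251.St Vale.Agent.P251.St.SHCat Vale.Agent.P257.St Vale.Agent.P251.T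
  Vale.Agent.P251.M Vale.Agent.P251.S Vale.Agent.P257.H702 Vale.Agent.P221.St
open Vale.Agent.P251.M.EvenSpheres
open Vale.Agent.P221.H395.Fp

set_option linter.unusedSectionVars false

open DirectSum

noncomputable section

namespace Vale.Agent.P221.E.H658

section Ph

universe v u

variable {T : Type u} [Category.{v} T] [MonoidalCategory T] [SymmetricCategory T]
  {E : EvenSpheres T}

/-- the suspension of `z : Q ⟶ X` -/
def Ph {X P Q : T} {k : ℤ} (c : E.S k ≅ Q ⊗ P) (z : Q ⟶ X) : E.S k ⟶ X ⊗ P :=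
  c.hom ≫ (z ▷ P)

theorem gsmul_Ph {R X : T} [MonObj R] (M : ModStr R X) {P Q S' : T} {d k l : ℤ}
    (h : d + k = l) (s : S' ≅ E.S d) (c : E.S k ≅ Q ⊗ P) :
    ∃ θ : E.S l ≅ (S' ⊗ Q) ⊗ P, ∀ (v : E.S d ⟶ R) (z : Q ⟶ X),
      gsmul (M.tensorRight P) h v (Ph c z) = Ph θ (((s.hom ≫ v) ⊗ₘ z) ≫ M.act) := by
  refine ⟨(E.mu d k l h).symm ≪≫ (s.symm ⊗ᵢ c) ≪≫ (α_ S' Q P).symm, fun v z => ?_⟩
  have h1 : (v ⊗ₘ (c.hom ≫ z ▷ P)) = (s.inv ⊗ₘ c.hom) ≫ ((s.hom ≫ v) ⊗ₘ (z ▷ P)) := by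
    rw [tensorHom_comp_tensorHom]
    simp
  have h2 : (α_ S' Q P).inv ≫ ((s.hom ≫ v) ⊗ₘ z) ▷ P = ((s.hom ≫ v) ⊗ₘ (z ▷ P)) ≫
      (α_ R X P).inv := by
    rw [← tensorHom_id, ← tensorHom_id, associator_inv_naturality]
  rw [gsmul, EvenSpheres.ext, Ph, Ph, h1]
  simp only [comp_whiskerRight, Category.assoc, Iso.trans_hom, Iso.symm_hom, tensorIso_hom]
  rw [reassoc_of% h2]
  rfl

end Ph

variable {T : SHCat} {S : Susp T} {R : RingSp T} {p : ℕ} {X : T.C}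

theorem Ph_sub {P Q : T.C} {k : ℤ} (c : (stdEven T.C).S k ≅ Q ⊗ P) (z z' : Q ⟶ X) :
    Ph c (z - z') = Ph c z - Ph c z' := by
  have h1 : (z - z') ▷ P = z ▷ P - z' ▷ P := (tensorRight P).map_sub
  rw [Ph, h1, Preadditive.comp_sub]
  rfl

theorem Ph_zero {P Q : T.C} {k : ℤ} (c : (stdEven T.C).S k ≅ Q ⊗ P) :
    Ph c (0 : Q ⟶ X) = 0 := by
  have h1 : (0 : Q ⟶ X) ▷ P = 0 := (tensorRight P).map_zero _ _
  rw [Ph, h1, comp_zero]

theorem Ph_zsmul {P Q : T.C} {k : ℤ} (c : (stdEven T.C).S k ≅ Q ⊗ P) (q : ℤ) (z : Q ⟶ X) :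
    Ph c (q • z) = q • Ph c z := by
  have h1 : (q • z) ▷ P = q • (z ▷ P) := (tensorRight P).map_zsmul
  rw [Ph, h1, Preadditive.comp_zsmul]
  rfl

/-- the submodule generated by `Z` and the multiples of `p` -/
def QM (M : ModStr R.obj X) (s : Set (HRing (stdEven T.C) R.obj)) (p : ℤ) (P : T.C)
    (Z : Set (⨁ k, GrM (M.tensorRight P) k)) :
    Submodule (A s) (⨁ k, GrM (M.tensorRight P) k) :=
  Submodule.span (A s) Z ⊔ LinearMap.range (p • (LinearMap.id :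
    (⨁ k, GrM (M.tensorRight P) k) →ₗ[A s] ⨁ k, GrM (M.tensorRight P) k))

section

variable {M : ModStr R.obj X} {s : Set (HRing (stdEven T.C) R.obj)} {P : T.C}
  {Z : Set (⨁ k, GrM (M.tensorRight P) k)}

theorem mem_QM {q : ℤ} {u : ⨁ k, GrM (M.tensorRight P) k} :
    u ∈ QM M s q P Z ↔ ∃ a ∈ Submodule.span (A s) Z, ∃ u', u - a = q • u' := by
  rw [QM, Submodule.mem_sup]
  constructor
  · rintro ⟨a, ha, _, ⟨u', rfl⟩, rfl⟩
    exact ⟨a, ha, u', by rw [add_sub_cancel_left]; rfl⟩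
  · rintro ⟨a, ha, u', hu'⟩
    exact ⟨a, ha, q • u', ⟨u', rfl⟩, by rw [← hu', add_sub_cancel]⟩

theorem smul_mem_QM {q : ℤ} (u : ⨁ k, GrM (M.tensorRight P) k) : q • u ∈ QM M s q P Z :=
  mem_QM.2 ⟨0, Submodule.zero_mem _, u, by rw [sub_zero]⟩

end

variable [hp : Fact p.Prime]

open Vale.Agent.P221.T (BPS sV)

/-- endomorphisms of even spheres act as integers modulo `p` -/
theorem exists_unit {Pc W : T.C} (b : BPS p R.obj Pc W) {Y : T.C} (M : ModStr R.obj Y)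
    (hY : H395.PComplete p Y) {l : ℤ} (u : (stdEven T.C).S l ⟶ (stdEven T.C).S l)
    (y : (stdEven T.C).S l ⟶ Y) :
    ∃ (n : ℤ) (y' : (stdEven T.C).S l ⟶ Y), u ≫ y = n • y + (p : ℤ) • y' := by
  let e : (stdEven T.C).S l ≅ (𝟙_ T.C)⟦(2 * l : ℤ)⟧ := (stdEven T.C).sphIso (Iso.refl _) l
  obtain ⟨n, z', h⟩ := b.exists_unit M hY (e.inv ≫ u ≫ e.hom) (e.inv ≫ y)
  refine ⟨n, e.hom ≫ z', ?_⟩
  have h1 := congrArg (fun t => e.hom ≫ t) h
  simp only [Category.assoc, Iso.hom_inv_id_assoc, Preadditive.comp_add,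
    Preadditive.comp_zsmul, Preadditive.comp_nsmul] at h1
  rw [h1, natCast_zsmul]

section gen

variable {Pc W : T.C} (b : BPS p R.obj Pc W) (M : ModStr R.obj X) {P : T.C}
  (hP : H395.PComplete p (X ⊗ P)) {s : Set (HRing (stdEven T.C) R.obj)}
  {Z : Set (⨁ k, GrM (M.tensorRight P) k)}

include b hP in
theorem QM_comp {l : ℤ} (u : (stdEven T.C).S l ⟶ (stdEven T.C).S l)
    {y : (stdEven T.C).S l ⟶ X ⊗ P} (hy : ofM (M.tensorRight P) l y ∈ QM M s (p : ℤ) P Z) :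
    ofM (M.tensorRight P) l (u ≫ y) ∈ QM M s (p : ℤ) P Z := by
  obtain ⟨n, y', h⟩ := exists_unit b (M.tensorRight P) hP u y
  rw [h, map_add, map_zsmul, map_zsmul]
  exact Submodule.add_mem _ (zsmul_mem hy n) (smul_mem_QM _)

include b in
theorem evSph_inj {l l' : ℤ} (e : (stdEven T.C).S l ≅ (stdEven T.C).S l') : l = l' := by
  have h := b.sphere_inj (((stdEven T.C).sphIso (Iso.refl _) l).symm ≪≫ e ≪≫
    (stdEven T.C).sphIso (Iso.refl _) l')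
  omega

include b hP in
/-- `IsFG` and suspended classes -/
theorem mem_of_span {a : Hom (ten R.obj X) X} (ha : M.act = a) {φ : GHom S p R} {n : ℕ}
    {Y : Set (Σ k : ℤ, Hom (sphere T k) X)}
    (hZ : ∀ (k : ℤ) (y : Hom (sphere T k) X), (⟨k, y⟩ : Σ k : ℤ, Hom (sphere T k) X) ∈ Y →
      ∀ (l : ℤ) (c : (stdEven T.C).S l ≅ (𝟙_ T.C)⟦k⟧ ⊗ P),
        ofM (M.tensorRight P) l (Ph c y) ∈ QM M (vset φ 1 n) (p : ℤ) P Z) {k : ℤ}
    {z : Hom (sphere T k) X} (hz : Span φ n a Y k z) :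
    ∀ (l : ℤ) (c : (stdEven T.C).S l ≅ (𝟙_ T.C)⟦k⟧ ⊗ P),
      ofM (M.tensorRight P) l (Ph c z) ∈ QM M (vset φ 1 n) (p : ℤ) P Z := by
  induction hz with
  | base hy => exact hZ _ _ hy
  | zero k =>
    intro l c
    rw [Ph_zero, map_zero]
    exact Submodule.zero_mem _
  | sub _ _ h1 h2 =>
    intro l c
    rw [Ph_sub, map_sub]
    exact Submodule.sub_mem _ (h1 l c) (h2 l c)
  | @mul j k k' y e hj hn he _ ih =>
    intro l c'
    have := he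
    let d : ℤ := ((p ^ j - 1 : ℕ) : ℤ)
    let sp : S.obj (Cn (p ^ j - 1)) ≅ (stdEven T.C).S d := isoE S (p ^ j - 1)
    -- the sphere in degree `l - d`
    let c : (stdEven T.C).S (l - d) ≅ (𝟙_ T.C)⟦k⟧ ⊗ P :=
      ((stdEven T.C).mu (-d) l (l - d) (by ring)).symm ≪≫
        whiskerLeftIso _ (c' ≪≫ whiskerRightIso (asIso e ≪≫ whiskerRightIso sp _) P ≪≫
          α_ _ _ _) ≪≫ (α_ _ _ _).symm ≪≫ whiskerRightIso (pairS (by ring)) _ ≪≫ λ_ _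
    obtain ⟨θ, hθ⟩ := gsmul_Ph M (P := P) (show d + (l - d) = l by ring) sp c
    have h1 := hθ (sp.inv ≫ hazV φ j) y
    rw [Iso.hom_inv_id_assoc] at h1
    have h2 : Ph c' (comp e (comp (tenHom (hazV φ j) y) a)) =
        (c'.hom ≫ (e ▷ P) ≫ θ.inv) ≫ Ph θ ((hazV φ j ⊗ₘ y) ≫ M.act) := by
      change c'.hom ≫ ((e ≫ (hazV φ j ⊗ₘ y) ≫ a) ▷ P) =
        (c'.hom ≫ (e ▷ P) ≫ θ.inv) ≫ θ.hom ≫ (((hazV φ j ⊗ₘ y) ≫ M.act) ▷ P)
      rw [ha, comp_whiskerRight]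
      simp only [Category.assoc, Iso.inv_hom_id_assoc]
    rw [h2]
    refine QM_comp b M hP _ ?_
    rw [← h1, ← of_smul_ofM (M.tensorRight P) (show d + (l - d) = l by ring)]
    exact Submodule.smul_mem _ (⟨vcl φ j, Algebra.subset_adjoin ⟨j, ⟨hj, hn⟩, rfl⟩⟩ :
      A (vset φ 1 n)) (ih (l - d) c)

end gen

end Vale.Agent.P221.E.H658
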