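import Vale.Agent.P221.E.H658.Nil

/-!
# P221 (helper658), converse on fp-spectra: the induction over generalised Moore spectra

* `nil_genMoore` : `p, v_1, …, v_{j-1}` are nilpotent on `π_{2*} (N ⊗ V)`, `V` of type `j`;
* `FGS M s V` : the modules `π_{2*} (N ⊗ V⟦m⟧)` are finitely generated over the subring generated by
  `s`;
* `fgs_genMoore` : `FGS M s V` holds if `π_{2*} (N ⊗ S^m)` is finitely generated modulo `p`, and
  without infinitely divisible sequences.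
-/

open CategoryTheory MonoidalCategory Limits Pretriangulated MonObj
open Vale.Agent.P251.T Vale.Agent.P251.M Vale.Agent.P251.S
open Vale.Agent.P251.M.EvenSpheres
open Vale.Agent.P221.H395.Fp

universe v u

set_option linter.unusedSectionVars false

open DirectSum

namespace Vale.Agent.P221.E.H658

section lib

variable {T : Type u} [Category.{v} T] [Preadditive T] [HasZeroObject T]
    [HasShift T ℤ] [∀ n : ℤ, (shiftFunctor T n).Additive] [Pretriangulated T]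
    [MonoidalCategory T] [SymmetricCategory T] [TensorTriangulated T]
variable {R : T} [MonObj R] [IsCommMonObj R] {N : T}

theorem hmap_zsmul_comp (M : ModStr R N) {X Y : T} {q : ℤ} {g : X ⟶ Y} (h : (q • 𝟙 X) ≫ g = 0)
    (u : ⨁ k, GrM (M.tensorRight X) k) : q • hmap (N ◁ g) (isLinear_wL M g) u = 0 := by
  refine ext_cM fun k => ?_
  rw [map_zsmul, cM_hmap, map_zero, ← Preadditive.comp_zsmul]
  have h1 : q • (N ◁ g) = N ◁ (q • g) := ((tensorLeft N).map_zsmul).symm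
  rw [h1]
  have h2 : q • g = 0 := by
    rw [Preadditive.zsmul_comp, Category.id_comp] at h
    exact h
  rw [h2, MonoidalPreadditive.whiskerLeft_zero, comp_zero]

theorem hmap_comp_zsmul (M : ModStr R N) {X Y : T} {q : ℤ} {g : Y ⟶ X} (h : g ≫ (q • 𝟙 X) = 0)
    (u : ⨁ k, GrM (M.tensorRight Y) k) : q • hmap (N ◁ g) (isLinear_wL M g) u = 0 := by
  refine hmap_zsmul_comp M ?_ u
  rw [Preadditive.comp_zsmul, Category.comp_id] at h
  rw [Preadditive.zsmul_comp, Category.id_comp, h]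

/-- the cofibre of an integer -/
theorem nilAt_int {X W : T} {q : ℤ} {g : X ⟶ W} {h : W ⟶ X⟦(1 : ℤ)⟧}
    (hT : Triangle.mk (q • 𝟙 X) g h ∈ distTriang T) :
    NilAt ((q : ℤ) : HRing (stdEven T) R) (1 + 1) W := by
  intro N M u
  refine nil_ext (hmap (N ◁ g) (isLinear_wL M g)) (hmap (N ◁ h) (isLinear_wL M h))
    (fun u hu => exact_hmap M (rot_of_distTriang _ hT) u hu) (fun u => ?_) (fun u => ?_) u
  · rw [pow_one, Int.cast_smul_eq_zsmul]
    exact hmap_zsmul_comp M (comp_distTriang_mor_zero₁₂ _ hT) u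
  · rw [pow_one, Int.cast_smul_eq_zsmul]
    refine hmap_comp_zsmul M ?_ u
    have h1 : h ≫ (q • 𝟙 X)⟦(1 : ℤ)⟧' = 0 := comp_distTriang_mor_zero₃₁ _ hT
    rwa [Functor.map_zsmul, CategoryTheory.Functor.map_id] at h1

/-- `π_{2*} (N ⊗ V)` is finitely generated -/
def FGA (M : ModStr R N) (s : Set (HRing (stdEven T) R)) (V : T) : Prop :=
  (⊤ : Submodule (A s) (⨁ k, GrM (M.tensorRight V) k)).FG

theorem fg_of_surj {H : Type*} [CommRing H] {s : Set H} {M₁ M₂ : Type*} [AddCommGroup M₁]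
    [AddCommGroup M₂] [Module H M₁] [Module H M₂] (f : M₁ →ₗ[H] M₂)
    (hf : Function.Surjective f) (h : (⊤ : Submodule (A s) M₁).FG) :
    (⊤ : Submodule (A s) M₂).FG := by
  have h1 := h.map (f.restrictScalars (A s))
  rwa [Submodule.map_top,
    (LinearMap.range_eq_top (f := f.restrictScalars (A s))).2 hf] at h1

theorem fg_of_le {R' : Type*} [CommRing R'] [IsNoetherianRing R'] {M' : Type*} [AddCommGroup M']
    [Module R' M'] {F L : Submodule R' M'} (hF : F.FG) (h : L ≤ F) : L.FG := by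
  have h4 : IsNoetherian R' F := isNoetherian_of_fg_of_noetherian _ hF
  have h5 := Submodule.FG.map F.subtype (IsNoetherian.noetherian (Submodule.comap F.subtype L))
  rwa [Submodule.map_comap_subtype, inf_eq_right.2 h] at h5

variable {M : ModStr R N} {s : Set (HRing (stdEven T) R)}

theorem FGA.of_iso {V W : T} (hV : FGA M s V) (e : V ≅ W) : FGA M s W :=
  fg_of_surj _ (hmap_surj (M := M.tensorRight V) (whiskerLeftIso N e) (isLinear_wL M e.hom)) hV

theorem FGA.tensS {V : T} (hV : FGA M s V) (d : ℤ) : FGA M s (V ⊗ (stdEven T).S d) :=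
  fg_of_surj _ (fun u => sgH_surj M V d u) hV

theorem FGA.ext₂ (hs : s.Finite) {X Y Z : T} {f : X ⟶ Y} {g : Y ⟶ Z} {h : Z ⟶ X⟦(1 : ℤ)⟧}
    (hT : Triangle.mk f g h ∈ distTriang T) (hX : FGA M s X) (hZ : FGA M s Z) : FGA M s Y :=
  fg_ext hs (hmap (N ◁ f) (isLinear_wL M f)) (hmap (N ◁ g) (isLinear_wL M g))
    (fun u hu => exact_hmap M hT u hu) (range_fg_of_fg _ hX) (range_fg_of_fg' hs _ hZ)

/-- all suspensions -/
def FGS (M : ModStr R N) (s : Set (HRing (stdEven T) R)) (V : T) : Prop :=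
  ∀ m : ℤ, FGA M s (V⟦m⟧)

theorem FGS.ext₃ (hs : s.Finite) {X Y Z : T} {f : X ⟶ Y} {g : Y ⟶ Z} {h : Z ⟶ X⟦(1 : ℤ)⟧}
    (hT : Triangle.mk f g h ∈ distTriang T) (hX : FGS M s X) (hY : FGS M s Y) : FGS M s Z := by
  intro m
  obtain ⟨w, hw⟩ := exists_dist_shift hT m
  exact FGA.ext₂ hs (rot_of_distTriang _ hw) (hY m)
    ((hX (m + 1)).of_iso ((shiftFunctorAdd T m 1).app X))

theorem FGS.tensS {V : T} (hV : FGS M s V) (d : ℤ) : FGS M s (V ⊗ (stdEven T).S d) := by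
  intro m
  exact (hV (2 * d + m)).of_iso ((shiftFunctorAdd T (2 * d) m).app V ≪≫
    (shiftFunctor T m).mapIso (((stdEven T).shiftNat (Iso.refl _) d).app V).symm)

/-- no infinitely divisible sequences -/
def DivP (M : ModStr R N) (p : ℤ) (V : T) : Prop :=
  ∀ x : ℕ → ⨁ k, GrM (M.tensorRight V) k, (∀ i, x i = p • x (i + 1)) → x 0 = 0

/-- finitely generated modulo `p` -/
def GenP (M : ModStr R N) (s : Set (HRing (stdEven T) R)) (p : ℤ) (V : T) : Prop :=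
  ∃ Z : Set (⨁ k, GrM (M.tensorRight V) k), Z.Finite ∧
    ∀ u : ⨁ k, GrM (M.tensorRight V) k, ∃ a ∈ Submodule.span (A s) Z, ∃ u', u - a = p • u'

/-- the Moore spectra -/
theorem fgs_base (hs : s.Finite) {p : ℤ} {i : ℕ} {W : T} {g : 𝟙_ T ⟶ W}
    {h : W ⟶ (𝟙_ T)⟦(1 : ℤ)⟧} (hT : Triangle.mk (p ^ i • 𝟙 (𝟙_ T)) g h ∈ distTriang T)
    (hdiv : ∀ m : ℤ, DivP M p ((𝟙_ T)⟦m⟧)) (hgen : ∀ m : ℤ, GenP M s p ((𝟙_ T)⟦m⟧)) :
    FGS M s W := by
  intro m
  have := noeth hs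
  obtain ⟨w, hw⟩ := exists_dist_shift hT m
  have hq : (p ^ i • 𝟙 (𝟙_ T))⟦m⟧' = p ^ i • 𝟙 ((𝟙_ T)⟦m⟧) := by
    rw [Functor.map_zsmul, CategoryTheory.Functor.map_id]
  rw [hq] at hw
  refine fg_ext hs (hmap (N ◁ g⟦m⟧') (isLinear_wL M _)) (hmap (N ◁ w) (isLinear_wL M _))
    (fun u hu => exact_hmap M (rot_of_distTriang _ hw) u hu) ?_ ?_
  · obtain ⟨Z, hZ, hgen⟩ := hgen m
    have h1 : ∀ (j : ℕ) (u : ⨁ k, GrM (M.tensorRight ((𝟙_ T)⟦m⟧)) k),
        ∃ a ∈ Submodule.span (A s) Z, ∃ u', u - a = p ^ j • u' := by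
      intro j
      induction j with
      | zero => exact fun u => ⟨0, Submodule.zero_mem _, u, by rw [pow_zero, one_smul, sub_zero]⟩
      | succ j ih =>
        intro u
        obtain ⟨a, ha, u', hu'⟩ := ih u
        obtain ⟨a', ha', u'', hu''⟩ := hgen u'
        refine ⟨a + p ^ j • a', Submodule.add_mem _ ha (zsmul_mem ha' _), u'', ?_⟩
        rw [pow_succ, mul_smul, ← hu'', smul_sub, ← hu']
        abel
    refine ⟨(hZ.image (hmap (N ◁ g⟦m⟧') (isLinear_wL M _))).toFinset, ?_⟩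
    rw [Set.Finite.coe_toFinset]
    refine le_antisymm ?_ ?_
    · rw [Submodule.span_le]
      rintro _ ⟨z, -, rfl⟩
      exact ⟨z, rfl⟩
    · rintro _ ⟨u, rfl⟩
      obtain ⟨a, ha, u', hu'⟩ := h1 i u
      have h2 : hmap (N ◁ g⟦m⟧') (isLinear_wL M _) u =
          hmap (N ◁ g⟦m⟧') (isLinear_wL M _) a := by
        rw [← sub_eq_zero, ← map_sub, hu', map_zsmul]
        exact hmap_zsmul_comp M (comp_distTriang_mor_zero₁₂ _ hw) u'
      have h3 : ((hmap (N ◁ g⟦m⟧') (isLinear_wL M _)).restrictScalars (A s)) a ∈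
          Submodule.map ((hmap (N ◁ g⟦m⟧') (isLinear_wL M _)).restrictScalars (A s))
            (Submodule.span (A s) Z) := ⟨a, ha, rfl⟩
      rw [Submodule.map_span] at h3
      change hmap (N ◁ g⟦m⟧') (isLinear_wL M _) u ∈ _
      rw [h2]
      exact h3
  · -- the kernel
    have e : (𝟙_ T)⟦(m + 1 : ℤ)⟧ ≅ ((𝟙_ T)⟦m⟧)⟦(1 : ℤ)⟧ := (shiftFunctorAdd T m 1).app _
    obtain ⟨Z, hZ, hgen⟩ := hgen (m + 1)
    obtain ⟨F, hF, hFt⟩ := tors_fg (R := A s) (hdiv (m + 1)) hZ hgen i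
    refine fg_of_le (hF.map ((hmap (M := M.tensorRight ((𝟙_ T)⟦(m + 1 : ℤ)⟧))
      (whiskerLeftIso N e).hom (isLinear_wL M e.hom)).restrictScalars (A s))) ?_
    rintro _ ⟨u, rfl⟩
    obtain ⟨u₁, hu₁⟩ := hmap_surj (M := M.tensorRight ((𝟙_ T)⟦(m + 1 : ℤ)⟧)) (whiskerLeftIso N e)
      (isLinear_wL M e.hom) (hmap (N ◁ w) (isLinear_wL M _) u)
    refine ⟨u₁, hFt u₁ ?_, hu₁⟩
    apply hmap_inj (M := M.tensorRight ((𝟙_ T)⟦(m + 1 : ℤ)⟧)) (whiskerLeftIso N e)
      (isLinear_wL M e.hom)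
    rw [map_zsmul, hu₁]
    refine hmap_comp_zsmul M ?_ u
    have h1 : w ≫ (p ^ i • 𝟙 ((𝟙_ T)⟦m⟧))⟦(1 : ℤ)⟧' = 0 := comp_distTriang_mor_zero₃₁ _ hw
    rwa [Functor.map_zsmul, CategoryTheory.Functor.map_id] at h1

end lib

section st

open Vale.Agent.P251.St Vale.Agent.P251.St.SHCat Vale.Agent.P257.St
open Vale.Agent.P257.H702 Vale.Agent.P221.St

variable {T : SHCat} {S : Susp T} {R : RingSp T} {p : ℕ}

theorem NilAt.pow {x : HRing (stdEven T.C) R.obj} {i a : ℕ} {V : T.C} (h : NilAt (x ^ i) a V) :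
    NilAt x (i * a) V := by
  intro N M u
  rw [pow_mul]
  exact h N M u

/-- the elements `p, v_1, …, v_{j-1}` are nilpotent -/
theorem nil_genMoore (hp : p.Prime) {o : Oriented S R} {φ : GHom S p R} (hφ : IsPTyp p o φ) {j : ℕ}
    {V : T.C} (hV : IsGenMoore φ j V) :
    1 ≤ j ∧ ∃ a, NilAt ((p : ℤ) : HRing (stdEven T.C) R.obj) a V ∧
      ∀ l, 1 ≤ l → l < j → NilAt (vcl φ l) a V := by
  induction hV with
  | @base i V g h hi hT =>
    refine ⟨le_rfl, i * (1 + 1), ?_, fun l h1 h2 => absurd h1 (by omega)⟩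
    have h1 : NilAt (((p : ℤ) ^ i : ℤ) : HRing (stdEven T.C) R.obj) (1 + 1) V := nilAt_int hT
    rw [Int.cast_pow] at h1
    exact h1.pow
  | @step j k i V W f g h w hV hi hw hf hT ih =>
    obtain ⟨hj, a, hp', hv⟩ := ih
    obtain ⟨h', hT'⟩ := selfMap_dist hT
    obtain ⟨⟨K, hK⟩, -, -, -⟩ := main_ind hp hφ hV
    have hk := degree_eq hp w hw
    have hw' : HRing.of (stdEven T.C) R.obj k ((isoE S k).inv ≫ φ.val w) = vcl φ j ^ i :=
      cls_pow hφ ⟨vEl p j, vEl_mem p j⟩ i k hk w hw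
    have h1 : NilAt (vcl φ j ^ i) (K + K) W := by
      refine nilAt_step hT' fun N M => ?_
      have hN := opH_pow_eq_zero M (itD_eq_zero (gh_of_inducesMul hf) hK)
      rw [opH_sub, opH_wm, hw'] at hN
      exact hN
    refine ⟨by omega, a + a + i * (K + K), ?_, fun l h2 h3 => ?_⟩
    · exact ((hp'.tensS k).ext₃ hT' hp').mono (by omega)
    · rcases (Nat.lt_succ_iff.1 h3).lt_or_eq with h4 | rfl
      · exact (((hv l h2 h4).tensS k).ext₃ hT' (hv l h2 h4)).mono (by omega)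
      · exact h1.pow.mono (by omega)

/-- finite generation for all generalised Moore spectra -/
theorem fgs_genMoore {φ : GHom S p R} {N : T.C} (M : ModStr R.obj N)
    {s : Set (HRing (stdEven T.C) R.obj)} (hs : s.Finite)
    (hdiv : ∀ m : ℤ, DivP M (p : ℤ) ((𝟙_ T.C)⟦m⟧))
    (hgen : ∀ m : ℤ, GenP M s (p : ℤ) ((𝟙_ T.C)⟦m⟧)) {j : ℕ} {V : T.C}
    (hV : IsGenMoore φ j V) : FGS M s V := by
  induction hV with
  | @base i V g h hi hT => exact fgs_base hs hT hdiv hgen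
  | @step j k i V W f g h w hV hi hw hf hT ih =>
    obtain ⟨h', hT'⟩ := selfMap_dist hT
    exact (ih.tensS k).ext₃ hs hT' ih

/-- **finiteness of the homotopy** -/
theorem finite_genMoore (hp : p.Prime) {o : Oriented S R} {φ : GHom S p R} (hφ : IsPTyp p o φ)
    {N : T.C} (M : ModStr R.obj N) {n : ℕ}
    (hdiv : ∀ m : ℤ, DivP M (p : ℤ) ((𝟙_ T.C)⟦m⟧))
    (hgen : ∀ m : ℤ, GenP M (vset φ 1 n) (p : ℤ) ((𝟙_ T.C)⟦m⟧)) {V : T.C}
    (hV : IsGenMoore φ (n + 1) V) (m : ℤ) :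
    Finite (⨁ k, GrM (M.tensorRight (V⟦m⟧)) k) := by
  obtain ⟨-, a, h1, h2⟩ := nil_genMoore hp hφ hV
  have h3 := fgs_genMoore M (vset_finite φ 1 n) hdiv hgen hV m
  refine finite_of_nil (vset_finite φ 1 n) h3 ?_ (q := (p : ℤ) ^ a)
    (pow_ne_zero _ (by exact_mod_cast hp.ne_zero)) fun u => ?_
  · rintro _ ⟨l, hl, rfl⟩
    rw [Set.mem_Icc] at hl
    exact ⟨a, fun u => (h2 l hl.1 (by omega)).shift m N M u⟩
  · have h4 := h1.shift m N M u
    rwa [← Int.cast_pow, Int.cast_smul_eq_zsmul] at h4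

end st

end Vale.Agent.P221.E.H658
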