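import Vale.Agent.P221.H395.Fp.Main
import Vale.Agent.P221.E.H658.Alg

/-!
# P221 (helper658), converse on fp-spectra: nilpotent operators

* `th M m A` : `(N ⊗ S^m) ⊗ A ≅ N ⊗ A⟦m⟧`, linear and natural;
* `NilAt x a V` : `x ^ a` is zero on `π_{2*} (N ⊗ V)` for all modules `N`;
* `NilAt.ext₃`, `NilAt.step` : cofibres.
-/

open CategoryTheory MonoidalCategory Limits Pretriangulated MonObj
open Vale.Agent.P251.T Vale.Agent.P251.M Vale.Agent.P251.S
open Vale.Agent.P251.M.EvenSpheres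
open Vale.Agent.P221.H395.Fp

universe v u

set_option linter.unusedSectionVars false

open DirectSum

namespace Vale.Agent.P221.E.H658

variable {T : Type u} [Category.{v} T] [Preadditive T] [HasZeroObject T]
    [HasShift T ℤ] [∀ n : ℤ, (shiftFunctor T n).Additive] [Pretriangulated T]
    [MonoidalCategory T] [SymmetricCategory T] [TensorTriangulated T]
variable {R : T} [MonObj R] [IsCommMonObj R] {N : T}

section lin

theorem hmap_surj {N' : T} {M : ModStr R N} {M' : ModStr R N'} (e : N ≅ N')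
    (he : M.IsLinear M' e.hom) : Function.Surjective (hmap e.hom he) := by
  intro u
  induction u using ind with
  | h0 => exact ⟨0, map_zero _⟩
  | h1 k y =>
    refine ⟨ofM M k (y ≫ e.inv), ?_⟩
    rw [hmap_of, Category.assoc, e.inv_hom_id, Category.comp_id]
  | h2 x y hx hy =>
    obtain ⟨x', rfl⟩ := hx
    obtain ⟨y', rfl⟩ := hy
    exact ⟨x' + y', map_add _ _ _⟩

theorem hmap_inj {N' : T} {M : ModStr R N} {M' : ModStr R N'} (e : N ≅ N')
    (he : M.IsLinear M' e.hom) {u : ⨁ k, GrM M k} (hu : hmap e.hom he u = 0) : u = 0 := by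
  refine ext_cM fun k => ?_
  rw [map_zero, ← cancel_mono e.hom, zero_comp, ← cM_hmap _ he, hu, map_zero]

theorem hmap_hmap {N' N'' : T} {M : ModStr R N} {M' : ModStr R N'} {M'' : ModStr R N''}
    {f : N ⟶ N'} {g : N' ⟶ N''} (hf : M.IsLinear M' f) (hg : M'.IsLinear M'' g)
    {h : N ⟶ N''} (hh : M.IsLinear M'' h) (e : f ≫ g = h) (u : ⨁ k, GrM M k) :
    hmap g hg (hmap f hf u) = hmap h hh u := by
  refine ext_cM fun k => ?_
  rw [cM_hmap, cM_hmap, cM_hmap, Category.assoc, e]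

theorem hmap_zero {N' : T} {M : ModStr R N} {M' : ModStr R N'} {f : N ⟶ N'}
    (hf : M.IsLinear M' f) (h : f = 0) (u : ⨁ k, GrM M k) : hmap f hf u = 0 := by
  refine ext_cM fun k => ?_
  rw [cM_hmap, h, comp_zero, map_zero]

theorem lin_comp {N' N'' : T} {M : ModStr R N} {M' : ModStr R N'} {M'' : ModStr R N''}
    {f : N ⟶ N'} {g : N' ⟶ N''} (hf : M.IsLinear M' f) (hg : M'.IsLinear M'' g) :
    M.IsLinear M'' (f ≫ g) := by
  unfold ModStr.IsLinear at hf hg ⊢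
  rw [← Category.assoc, hf, Category.assoc, hg, MonoidalCategory.whiskerLeft_comp, Category.assoc]

theorem lin_assoc (M : ModStr R N) (P A : T) :
    ((M.tensorRight P).tensorRight A).IsLinear (M.tensorRight (P ⊗ A)) (α_ N P A).hom := by
  change ((α_ R (N ⊗ P) A).inv ≫ (((α_ R N P).inv ≫ (M.act ▷ P)) ▷ A)) ≫ (α_ N P A).hom =
    (R ◁ (α_ N P A).hom) ≫ (α_ R N (P ⊗ A)).inv ≫ (M.act ▷ (P ⊗ A))
  simp

/-- `P ⊗ A ≅ A⟦m⟧`, `P = S^m` -/
noncomputable def swS (m : ℤ) (A : T) : ((𝟙_ T)⟦m⟧) ⊗ A ≅ A⟦m⟧ := β_ _ _ ≪≫ tensorSph m A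

theorem swS_nat (m : ℤ) {A B : T} (f : A ⟶ B) :
    ((𝟙_ T)⟦m⟧ ◁ f) ≫ (swS m B).hom = (swS m A).hom ≫ f⟦m⟧' := by
  change ((𝟙_ T)⟦m⟧ ◁ f) ≫ (β_ _ _).hom ≫ (tensorSph m B).hom =
    ((β_ _ _).hom ≫ (tensorSph m A).hom) ≫ f⟦m⟧'
  rw [BraidedCategory.braiding_naturality_right_assoc, Category.assoc, tensorSph_naturality]

/-- `(N ⊗ S^m) ⊗ A ≅ N ⊗ A⟦m⟧` -/
noncomputable def th (N : T) (m : ℤ) (A : T) : (N ⊗ (𝟙_ T)⟦m⟧) ⊗ A ≅ N ⊗ A⟦m⟧ :=
  α_ _ _ _ ≪≫ whiskerLeftIso N (swS m A)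

theorem th_lin (M : ModStr R N) (m : ℤ) (A : T) :
    ((M.tensorRight ((𝟙_ T)⟦m⟧)).tensorRight A).IsLinear (M.tensorRight (A⟦m⟧))
      (th N m A).hom :=
  lin_comp (lin_assoc M _ A) (isLinear_wL M _)

theorem th_nat (N : T) (m : ℤ) {A B : T} (f : A ⟶ B) :
    ((N ⊗ (𝟙_ T)⟦m⟧) ◁ f) ≫ (th N m B).hom = (th N m A).hom ≫ (N ◁ f⟦m⟧') := by
  change ((N ⊗ (𝟙_ T)⟦m⟧) ◁ f) ≫ (α_ _ _ _).hom ≫ (N ◁ (swS m B).hom) =
    ((α_ _ _ _).hom ≫ (N ◁ (swS m A).hom)) ≫ (N ◁ f⟦m⟧')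
  rw [Category.assoc, ← MonoidalCategory.whiskerLeft_comp, ← swS_nat,
    MonoidalCategory.whiskerLeft_comp]
  simp

end lin

/-- `x ^ a` is zero on `π_{2*} (N ⊗ V)` for all modules `N` -/
def NilAt (x : HRing (stdEven T) R) (a : ℕ) (V : T) : Prop :=
  ∀ (N : T) (M : ModStr R N) (u : ⨁ k, GrM (M.tensorRight V) k), x ^ a • u = 0

variable {x : HRing (stdEven T) R}

theorem NilAt.mono {a b : ℕ} (h : a ≤ b) {V : T} (hV : NilAt x a V) : NilAt x b V := by
  intro N M u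
  rw [← Nat.sub_add_cancel h, pow_add, mul_smul, hV N M u, smul_zero]

theorem NilAt.of_iso {a : ℕ} {V W : T} (hV : NilAt x a V) (e : V ≅ W) : NilAt x a W := by
  intro N M u
  obtain ⟨u, rfl⟩ := hmap_surj (M := M.tensorRight V) (whiskerLeftIso N e) (isLinear_wL M e.hom) u
  rw [← map_smul, hV N M u, map_zero]

theorem NilAt.shift {a : ℕ} {V : T} (hV : NilAt x a V) (m : ℤ) : NilAt x a (V⟦m⟧) := by
  intro N M u
  obtain ⟨u, rfl⟩ := hmap_surj (th N m V) (th_lin M m V) u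
  rw [← map_smul, hV _ (M.tensorRight ((𝟙_ T)⟦m⟧)) u, map_zero]

theorem NilAt.tensS {a : ℕ} {V : T} (hV : NilAt x a V) (d : ℤ) :
    NilAt x a (V ⊗ (stdEven T).S d) := by
  intro N M u
  obtain ⟨u, rfl⟩ := sgH_surj M V d u
  rw [← map_smul, hV N M u, map_zero]

theorem NilAt.of_map {a : ℕ} {X Y : T} (hX : NilAt x a X) (N : T) (M : ModStr R N) (f : X ⟶ Y)
    (u : ⨁ k, GrM (M.tensorRight X) k) : x ^ a • hmap (N ◁ f) (isLinear_wL M f) u = 0 := by
  rw [← map_smul, hX N M u, map_zero]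

theorem NilAt.ext₂ {a b : ℕ} {X Y Z : T} {f : X ⟶ Y} {g : Y ⟶ Z} {h : Z ⟶ X⟦(1 : ℤ)⟧}
    (hT : Triangle.mk f g h ∈ distTriang T) (hX : NilAt x a X) (hZ : NilAt x b Z) :
    NilAt x (a + b) Y := by
  intro N M u
  exact nil_ext (hmap (N ◁ f) (isLinear_wL M f)) (hmap (N ◁ g) (isLinear_wL M g))
    (fun u hu => exact_hmap M hT u hu) (fun u => hX.of_map N M f u) (fun u => hZ N M _) u

theorem NilAt.ext₃ {a b : ℕ} {X Y Z : T} {f : X ⟶ Y} {g : Y ⟶ Z} {h : Z ⟶ X⟦(1 : ℤ)⟧}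
    (hT : Triangle.mk f g h ∈ distTriang T) (hX : NilAt x a X) (hY : NilAt x b Y) :
    NilAt x (b + a) Z :=
  NilAt.ext₂ (rot_of_distTriang _ hT) hY (hX.shift 1)

/-- the cofibre of an operator which is `y` plus something nilpotent -/
theorem nilAt_step {V W : T} {d : ℤ} {f : V ⊗ (stdEven T).S d ⟶ V} {g : V ⟶ W}
    {h : W ⟶ (V ⊗ (stdEven T).S d)⟦(1 : ℤ)⟧} (hT : Triangle.mk f g h ∈ distTriang T)
    {y : HRing (stdEven T) R} {K : ℕ}
    (hF : ∀ (N : T) (M : ModStr R N), ((opH M ((FM.free R).map f) -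
      y • (1 : Module.End (HRing (stdEven T) R) (⨁ k, GrM (M.tensorRight V) k))) :
        Module.End (HRing (stdEven T) R) (⨁ k, GrM (M.tensorRight V) k)) ^ K = 0) :
    NilAt y (K + K) W := by
  intro N M u
  refine nil_ext (hmap (N ◁ g) (isLinear_wL M g)) (hmap (N ◁ h) (isLinear_wL M h))
    (fun u hu => exact_hmap M (rot_of_distTriang _ hT) u hu) (fun u => ?_) (fun u => ?_) u
  · -- the cokernel
    set F : Module.End (HRing (stdEven T) R) (⨁ k, GrM (M.tensorRight V) k) :=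
      opH M ((FM.free R).map f) with hFd
    set Y : Module.End (HRing (stdEven T) R) (⨁ k, GrM (M.tensorRight V) k) :=
      y • (1 : Module.End (HRing (stdEven T) R) (⨁ k, GrM (M.tensorRight V) k)) with hYd
    have hcomm : Commute Y (-(F - Y)) := by
      have h1 : Commute Y F := by
        change (y • (1 : Module.End (HRing (stdEven T) R) (⨁ k, GrM (M.tensorRight V) k))) * F =
          F * (y • (1 : Module.End (HRing (stdEven T) R) (⨁ k, GrM (M.tensorRight V) k)))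
        rw [smul_mul_assoc, _root_.one_mul, mul_smul_comm, _root_.mul_one]
      exact (h1.sub_right (Commute.refl Y)).neg_right
    have h2 := hcomm.sub_dvd_pow_sub_pow K
    have h3 : (-(F - Y)) ^ K = 0 := (neg_pow (F - Y) K).trans (by rw [hF N M, mul_zero])
    rw [h3, sub_zero, show Y - -(F - Y) = F by abel] at h2
    obtain ⟨c, hc⟩ := h2
    have h4 : y ^ K • u = F (c u) := by
      have h5 := congrArg (fun z : Module.End (HRing (stdEven T) R)
        (⨁ k, GrM (M.tensorRight V) k) => z u) hc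
      rw [hYd, smul_pow, one_pow] at h5
      exact h5
    rw [← map_smul, h4, hFd, opH_free, hmap_hmap _ _ (isLinear_wL M (f ≫ g))
      (MonoidalCategory.whiskerLeft_comp _ _ _).symm]
    refine hmap_zero _ ?_ _
    have h6 : f ≫ g = 0 := comp_distTriang_mor_zero₁₂ _ hT
    rw [h6]
    exact MonoidalPreadditive.whiskerLeft_zero
  · -- the kernel
    have h1 : hmap (N ◁ f⟦(1 : ℤ)⟧') (isLinear_wL M _) (hmap (N ◁ h) (isLinear_wL M h) u) = 0 := by
      rw [hmap_hmap _ _ (isLinear_wL M (h ≫ f⟦(1 : ℤ)⟧'))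
        (MonoidalCategory.whiskerLeft_comp _ _ _).symm]
      refine hmap_zero _ ?_ _
      have h6 : h ≫ f⟦(1 : ℤ)⟧' = 0 := comp_distTriang_mor_zero₃₁ _ hT
      rw [h6]
      exact MonoidalPreadditive.whiskerLeft_zero
    obtain ⟨u₁, hu₁⟩ := hmap_surj (th N 1 (V ⊗ (stdEven T).S d))
      (th_lin M 1 (V ⊗ (stdEven T).S d)) (hmap (N ◁ h) (isLinear_wL M h) u)
    rw [← hu₁] at h1 ⊢
    let M' : ModStr R (N ⊗ (𝟙_ T)⟦(1 : ℤ)⟧) := M.tensorRight ((𝟙_ T)⟦(1 : ℤ)⟧)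
    have h2 : hmap ((N ⊗ (𝟙_ T)⟦(1 : ℤ)⟧) ◁ f) (isLinear_wL M' f) u₁ = 0 := by
      apply hmap_inj (th N 1 V) (th_lin M 1 V)
      exact (hmap_hmap _ _ (lin_comp (th_lin M 1 (V ⊗ (stdEven T).S d)) (isLinear_wL M _))
        (th_nat N 1 f) u₁).trans ((hmap_hmap _ _ _ rfl u₁).symm.trans h1)
    obtain ⟨u₂, hu₂⟩ := sgH_surj M' V d u₁
    have h3 : opH M' ((FM.free R).map f) u₂ = 0 := by rw [opH_free, hu₂, h2]
    set D : Module.End (HRing (stdEven T) R) (⨁ k, GrM (M'.tensorRight V) k) :=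
      (opH M' ((FM.free R).map f) - y • (1 : Module.End (HRing (stdEven T) R) _)) with hD
    have h4 : ∀ m : ℕ, (D ^ m) u₂ = (-y) ^ m • u₂ := by
      intro m
      induction m with
      | zero => rw [pow_zero, pow_zero, one_smul]; rfl
      | succ m ih =>
        rw [pow_succ', Module.End.mul_apply, ih, map_smul, pow_succ, mul_smul]
        congr 1
        rw [hD, LinearMap.sub_apply, h3, zero_sub, neg_smul]
        rfl
    have h5 := h4 K
    rw [hF _ M', LinearMap.zero_apply, neg_pow, mul_smul] at h5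
    have h6 : y ^ K • u₂ = 0 := by
      have h7 := congrArg (fun z => (-1 : HRing (stdEven T) R) ^ K • z) h5
      simp only [smul_zero] at h7
      rw [← mul_smul, ← mul_pow, neg_one_mul, neg_neg, one_pow, one_smul] at h7
      exact h7.symm
    have h8 : y ^ K • u₁ = 0 := by rw [← hu₂, ← map_smul, h6, map_zero]
    rw [← map_smul]
    exact (congrArg _ h8).trans (map_zero _)

end Vale.Agent.P221.E.H658
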